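import Vale.Agent.P231.Bd3.B6

/-! Weak MTW implies convexity of all tangent injectivity domains; the exponential map is
constructed and shown to be unique. -/

open Bundle Manifold
open scoped ContDiff Manifold

namespace Vale.Agent.Results.P234.VillaniConvexity

open Vale.Agent.P234

/-- On a compact connected Riemannian manifold the exponential map exists and is unique, and if the
weak Ma-Trudinger-Wang condition holds then every tangent injectivity domain is convex. -/
theorem result {E : Type*} [NormedAddCommGroup E] [NormedSpace ℝ E] [FiniteDimensional ℝ E]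
    {M : Type*} [MetricSpace M] [ChartedSpace E M] [IsManifold 𝓘(ℝ, E) ∞ M]
    [RiemannianBundle (fun x : M => TangentSpace 𝓘(ℝ, E) x)]
    [IsContMDiffRiemannianBundle 𝓘(ℝ, E) ∞ E (fun x : M => TangentSpace 𝓘(ℝ, E) x)]
    [IsRiemannianManifold 𝓘(ℝ, E) M] [CompactSpace M] [ConnectedSpace M] :
    ∃ e : ∀ x : M, TangentSpace 𝓘(ℝ, E) x → M, IsExp e ∧
      (∀ e' : ∀ x : M, TangentSpace 𝓘(ℝ, E) x → M, IsExp e' → e' = e) ∧
      (WeakMTW e → ∀ x : M, Convex ℝ (injDomain e x)) :=
  main_unconditional

end Vale.Agent.Results.P234.VillaniConvexity
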